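import Vale.Agent.P219.CH.Theta.Main
import Vale.Agent.P219.CH.CoordPerimeter

/-!
The isoperimetric inequality on Cartan-Hadamard manifolds of every dimension `n ≥ 5` with a
fraction of the Euclidean constant that tends to `√(2/e)`.
-/

namespace Vale.Agent.Results.P219.CartanHadamardAllDims

open Vale.Agent.P219.CH.Coord MeasureTheory Filter Topology
open scoped ContDiff

theorem result : ∀ n : ℕ, 5 ≤ n → ∀ g : Pt n → Fin n → Fin n → ℝ, CartanHadamard g →
    ∀ K : Set (Pt n), IsCompact K → ∀ S : Set (Pt n), MeasurableSet S → S ⊆ K →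
    ∀ f : ℕ → Pt n → ℝ, (∀ k, ContDiff ℝ ∞ (f k)) → (∀ k, tsupport (f k) ⊆ K) →
      (∀ k x, f k x ∈ Set.Icc (0 : ℝ) 1) →
      Tendsto (fun k => ∫ x, |f k x - S.indicator 1 x| * density g x) atTop (𝓝 0) →
      ∀ c < Real.sqrt (2 / Real.exp 1) / (4 * (n : ℝ)) ^ (1 / (n : ℝ)) *
          (n * ballVol n ^ (1 / (n : ℝ))) * (∫ x in S, density g x) ^ (((n : ℝ) - 1) / n),
        ∀ᶠ k in atTop, c < ∫ x, gradLen g (f k) x * density g x := fun _ hn g hg K hK S hSm hSK f
    hf hs h01 hlim c hc =>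
  perimeterWith (by omega) (Vale.Agent.P219.CH.Theta.sobolevWith_theta hn) g hg K hK S hSm hSK f
    hf hs h01 hlim c hc

end Vale.Agent.Results.P219.CartanHadamardAllDims
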