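import Vale.Agent.P219.CH.Gen.Main
import Vale.Agent.P219.CH.Gen.Cert.Nine
import Vale.Agent.P219.CH.Gen.Cert.Ten
import Vale.Agent.P219.CH.CoordPerimeter
import Vale.Agent.P219.CH.CoordMinkowski

/-!
The sharp Euclidean isoperimetric inequality on Cartan-Hadamard manifolds of dimensions nine and
ten, for lower Minkowski content and for the relaxed perimeter.
-/

namespace Vale.Agent.Results.P219.CartanHadamardNineTen

open Vale.Agent.P219.CH.Coord MeasureTheory Filter Topology
open scoped ContDiff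

theorem result : ∀ n : ℕ, 9 ≤ n → n ≤ 10 →
    CartanHadamard (fun (_ : Pt n) (i j : Fin n) => if i = j then (1 : ℝ) else 0) ∧
    ∀ g : Pt n → Fin n → Fin n → ℝ, CartanHadamard g →
      (∀ S : Set (Pt n), MeasurableSet S → Bornology.IsBounded S → 0 < volOf g S →
        ∀ c < n * ballVol n ^ (1 / (n : ℝ)) * (volOf g S).toReal ^ (((n : ℝ) - 1) / n),
          ∀ᶠ ε in 𝓝[>] (0 : ℝ),
            ENNReal.ofReal ((volOf g S).toReal + ε * c) ≤ volOf g (nbhdOf g S ε)) ∧
      ∀ K : Set (Pt n), IsCompact K → ∀ S : Set (Pt n), MeasurableSet S → S ⊆ K →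
      ∀ f : ℕ → Pt n → ℝ, (∀ k, ContDiff ℝ ∞ (f k)) → (∀ k, tsupport (f k) ⊆ K) →
        (∀ k x, f k x ∈ Set.Icc (0 : ℝ) 1) →
        Tendsto (fun k => ∫ x, |f k x - S.indicator 1 x| * density g x) atTop (𝓝 0) →
        ∀ c < n * ballVol n ^ (1 / (n : ℝ)) *
            (∫ x in S, density g x) ^ (((n : ℝ) - 1) / n),
          ∀ᶠ k in atTop, c < ∫ x, gradLen g (f k) x * density g x := by
  intro n hn hn'
  have hS : Vale.Agent.P219.CH.SobolevStmt n := by
    interval_cases n
    · exact Vale.Agent.P219.CH.Gen.sobolev_of_cert (by norm_num) Vale.Agent.P219.CH.Gen.cert9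
    · exact Vale.Agent.P219.CH.Gen.sobolev_of_cert (by norm_num) Vale.Agent.P219.CH.Gen.cert10
  have h0 : 0 < n := by omega
  exact ⟨cartanHadamard_id n, fun g hg =>
    ⟨fun S hSm hSb hS0 c hc => minkowski h0 hS g hg S hSm hSb hS0 c hc,
      fun K hK S hSm hSK f hf hs h01 hlim c hc =>
        perimeter h0 hS g hg K hK S hSm hSK f hf hs h01 hlim c hc⟩⟩

end Vale.Agent.Results.P219.CartanHadamardNineTen
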