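import Vale.Agent.P219.Warped.Main

open MeasureTheory Set Filter Topology
open scoped ENNReal

namespace Vale.Agent.Results.P219.LogConvexWarped

open Vale.Agent.P219

/-- The sharp Euclidean isoperimetric inequality, in lower-Minkowski-content form, for
`ℝ × ℝ^m` with the metric `dt² + ∑ exp (2 φ j t) dy_j²`, all `φ j` convex. -/
theorem result (m : ℕ) (φ : Fin m → ℝ → ℝ) (hφ : ∀ j, ConvexOn ℝ univ (φ j))
    (E : Set (ℝ × (Fin m → ℝ))) (hE : MeasurableSet E) (hb : Bornology.IsBounded E)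
    (μ : Measure (ℝ × (Fin m → ℝ)))
    (hμ : μ = volume.withDensity fun p => ENNReal.ofReal (Real.exp (∑ j, φ j p.1)))
    (hpos : 0 < μ E) (c : ℝ)
    (hc : c < (m + 1 : ℕ) *
      (volume (Metric.ball (0 : EuclideanSpace ℝ (Fin (m + 1))) 1)).toReal ^ (1 / (m + 1 : ℝ)) *
      (μ E).toReal ^ ((m : ℝ) / (m + 1))) :
    ∀ᶠ ε in 𝓝[>] (0 : ℝ), ENNReal.ofReal ((μ E).toReal + ε * c) ≤
      μ {q | ∃ γ : ℝ → ℝ × (Fin m → ℝ), ContDiff ℝ 1 γ ∧ γ 0 ∈ E ∧ γ 1 = q ∧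
        ∫ s in (0 : ℝ)..1, Real.sqrt ((deriv γ s).1 ^ 2 +
          ∑ j, (Real.exp (φ j (γ s).1) * (deriv γ s).2 j) ^ 2) < ε} := by
  subst hμ
  rw [← Warped.omega_eq] at hc
  exact Warped.isoperimetric hφ hE hb hpos hc

end Vale.Agent.Results.P219.LogConvexWarped
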